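import Vale.Agent.P254.SP.H151.Fin3
import Vale.Agent.P254.SP.H448.KtE
import Vale.Agent.P254.SP.H455.Ktot
import Vale.Agent.P254.SP.H567.Final

/-!
P254, line (SP_0): **the stability form `StmtStab`**, no hypothesis.

Columns: `q ≤ 4` helper979, `[4,7]` helper425, `[7,12]` helper20, `[12,40]` helper222, `q ≥ 40`
helper674 (one-variable certifier helper721); modes helper38, helper127; kernels helper958, helper533,
helper448, helper455; assembly helper151.
-/

set_option autoImplicit false

namespace Vale.Agent.P254.SP

theorem stab : E72.StmtStab H156.F1inst := by
  refine SP151.stab_final3 fun x y => ?_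
  rcases le_total 0 x with h | h
  · exact H455.kt_pos H156.F1inst h y
  · exact SP448.ktot_neg H156.F1inst h y

end Vale.Agent.P254.SP
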